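import Mathlib.Combinatorics.SimpleGraph.Connectivity.Subgraph
import Mathlib.Data.Set.Card
import Mathlib.Tactic

set_option autoImplicit false

/-!
# P235, K5, Wagner: the trichotomy of a connected set touched by three others
-/

namespace Vale.Agent.P235.K5.H394

open SimpleGraph Set

variable {V : Type}

/-- the set `S` is connected in `G` -/
def Cn (G : SimpleGraph V) (S : Set V) : Prop := (G.induce S).Connected

/-- an edge between `S` and `T` -/
def Ad (G : SimpleGraph V) (S T : Set V) : Prop := ∃ s ∈ S, ∃ t ∈ T, G.Adj s t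

/-- `S` meets two of the sets `T 0`, `T 1`, `T 2` -/
def Two (T : Fin 3 → Set V) (S : Set V) : Prop :=
  ∃ i j, i ≠ j ∧ (S ∩ T i).Nonempty ∧ (S ∩ T j).Nonempty

theorem Ad.symm {G : SimpleGraph V} {S T : Set V} (h : Ad G S T) : Ad G T S := by
  obtain ⟨s, hs, t, ht, h⟩ := h
  exact ⟨t, ht, s, hs, h.symm⟩

theorem Ad.mono {G : SimpleGraph V} {S T S' T' : Set V} (h : Ad G S T) (hS : S ⊆ S')
    (hT : T ⊆ T') : Ad G S' T' := by
  obtain ⟨s, hs, t, ht, h⟩ := h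
  exact ⟨s, hS hs, t, hT ht, h⟩

theorem Two.mono {T : Fin 3 → Set V} {S S' : Set V} (h : Two T S) (hS : S ⊆ S') : Two T S' := by
  obtain ⟨i, j, hij, hi, hj⟩ := h
  exact ⟨i, j, hij, hi.mono (inter_subset_inter_left _ hS), hj.mono (inter_subset_inter_left _ hS)⟩

theorem Cn.nonempty {G : SimpleGraph V} {S : Set V} (h : Cn G S) : S.Nonempty := by
  have h1 : (G.induce S).Connected := h
  obtain ⟨x⟩ := h1.nonempty
  exact ⟨x, x.2⟩

theorem Cn.union {G : SimpleGraph V} {S T : Set V} (hS : Cn G S) (hT : Cn G T) (h : Ad G S T) :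
    Cn G (S ∪ T) := by
  obtain ⟨s, hs, t, ht, h⟩ := h
  exact connected_induce_union hS.preconnected hT.preconnected hs ht h

theorem Cn.union' {G : SimpleGraph V} {S T : Set V} (hS : Cn G S) (hT : Cn G T)
    (h : (S ∩ T).Nonempty) : Cn G (S ∪ T) :=
  induce_union_connected hS.preconnected hT.preconnected h

theorem cn_singleton (G : SimpleGraph V) (v : V) : Cn G {v} := by
  have : Nonempty ({v} : Set V) := ⟨⟨v, rfl⟩⟩
  have : Subsingleton ({v} : Set V) := ⟨fun a b => Subtype.ext (a.2.trans b.2.symm)⟩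
  exact Connected.of_subsingleton

/-- crossing edge -/
theorem Cn.cross {G : SimpleGraph V} {M S : Set V} (hM : Cn G M) (hSM : S ⊆ M)
    (hS : S.Nonempty) (hne : S ≠ M) : ∃ u ∈ S, ∃ v ∈ M \ S, G.Adj u v := by
  by_contra hcon
  push Not at hcon
  obtain ⟨s, hs⟩ := hS
  apply hne
  apply Subset.antisymm hSM
  intro x hx
  have h1 := hM.preconnected ⟨s, hSM hs⟩ ⟨x, hx⟩
  obtain ⟨w⟩ := h1
  have key : ∀ (a b : M) (w : (G.induce M).Walk a b), (a : V) ∈ S → (b : V) ∈ S := by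
    intro a b w
    induction w with
    | nil => exact fun h => h
    | @cons a c b hadj p ih =>
      intro ha
      apply ih
      by_contra hc
      exact hcon a ha c ⟨c.2, hc⟩ hadj
  exact key _ _ w hs

/-- maximal connected extension -/
theorem Cn.exists_max [Finite V] {G : SimpleGraph V} {S N : Set V} (hS : Cn G S) (hSN : S ⊆ N) :
    ∃ K, S ⊆ K ∧ K ⊆ N ∧ Cn G K ∧ ∀ u ∈ K, ∀ v ∈ N \ K, ¬ G.Adj u v := by
  classical
  have hfin : {K : Set V | S ⊆ K ∧ K ⊆ N ∧ Cn G K}.Finite := Set.toFinite _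
  obtain ⟨K, hK, hmax⟩ := hfin.exists_maximalFor Set.ncard _ ⟨S, Subset.rfl, hSN, hS⟩
  refine ⟨K, hK.1, hK.2.1, hK.2.2, ?_⟩
  intro u hu v hv huv
  have h1 : Cn G (K ∪ {v}) := hK.2.2.union (cn_singleton G v) ⟨u, hu, v, rfl, huv⟩
  have h2 : K ∪ {v} ∈ {K : Set V | S ⊆ K ∧ K ⊆ N ∧ Cn G K} :=
    ⟨hK.1.trans subset_union_left, union_subset hK.2.1 (singleton_subset_iff.2 hv.1), h1⟩
  have h3 : K.ncard < (K ∪ {v}).ncard := by
    apply Set.ncard_lt_ncard _ (Set.toFinite _)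
    refine ⟨subset_union_left, fun h => hv.2 (h (mem_union_right _ rfl))⟩
  exact absurd (hmax h2 h3.le) (not_le.2 h3)

/-- cutting off a set which is closed up to `C` -/
theorem Cn.diff [Finite V] {G : SimpleGraph V} {P C E : Set V} (hP : Cn G P) (hC : Cn G C)
    (hCP : C ⊆ P) (hCE : Disjoint C E) (h : ∀ u ∈ E, ∀ v ∈ (P \ E) \ C, ¬ G.Adj u v) :
    Cn G (P \ E) := by
  have hCE' : C ⊆ P \ E := fun x hx => ⟨hCP hx, fun hE => Set.disjoint_left.1 hCE hx hE⟩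
  obtain ⟨K, h1, h2, h3, h4⟩ := hC.exists_max hCE'
  by_cases hK : K = P \ E
  · rw [← hK]; exact h3
  · exfalso
    have hR : ((P \ E) \ K).Nonempty := by
      by_contra hcon
      rw [Set.not_nonempty_iff_eq_empty, Set.sdiff_eq_empty] at hcon
      exact hK (Subset.antisymm h2 hcon)
    have hRP : (P \ E) \ K ⊆ P := fun x hx => hx.1.1
    have hne : (P \ E) \ K ≠ P := by
      intro hcon
      obtain ⟨x, hx⟩ := h3.nonempty
      have : x ∈ (P \ E) \ K := by rw [hcon]; exact (h2 hx).1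
      exact this.2 hx
    obtain ⟨u, hu, v, hv, huv⟩ := hP.cross hRP hR hne
    by_cases hvK : v ∈ K
    · exact h4 v hvK u hu huv.symm
    · have hvE : v ∈ E := by
        by_contra hvE
        exact hv.2 ⟨⟨hv.1, hvE⟩, hvK⟩
      exact h v hvE u ⟨hu.1, fun huC => hu.2 (h1 huC)⟩ huv.symm

/-- the side of `m` -/
theorem Cn.split [Finite V] {G : SimpleGraph V} {M D : Set V} {m : V} (hM : Cn G M) (hm : m ∈ M)
    (hD : Cn G D) (hDM : D ⊆ M \ {m}) :
    ∃ F, D ⊆ F ∧ F ⊆ M \ {m} ∧ Cn G F ∧ Cn G (M \ F) ∧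
      ∀ u ∈ F, ∀ v ∈ (M \ {m}) \ F, ¬ G.Adj u v := by
  obtain ⟨F, h1, h2, h3, h4⟩ := hD.exists_max hDM
  refine ⟨F, h1, h2, h3, ?_, h4⟩
  apply hM.diff (cn_singleton G m) (singleton_subset_iff.2 hm)
  · rw [Set.disjoint_singleton_left]
    exact fun h => (h2 h).2 rfl
  · intro u hu v hv
    exact h4 u hu v ⟨⟨hv.1.1, hv.2⟩, hv.1.2⟩

/-- a connected set inside `N` which meets a closed set is contained in it -/
theorem Cn.sub_closed {G : SimpleGraph V} {C F N : Set V} (hC : Cn G C) (hCN : C ⊆ N)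
    (hF : ∀ u ∈ F, ∀ v ∈ N \ F, ¬ G.Adj u v) (h : (C ∩ F).Nonempty) : C ⊆ F := by
  by_contra hcon
  obtain ⟨u, hu, v, hv, huv⟩ := hC.cross (S := C ∩ F) inter_subset_left h (by
    intro h1
    exact hcon (inter_eq_left.1 h1))
  exact hF u hu.2 v ⟨hCN hv.1, fun hvF => hv.2 ⟨hv.1, hvF⟩⟩ huv

theorem two_or {T : Fin 3 → Set V} {C D : Set V} (h : ∀ j, ((C ∪ D) ∩ T j).Nonempty) :
    Two T C ∨ Two T D := by
  have h1 : ∀ j, (C ∩ T j).Nonempty ∨ (D ∩ T j).Nonempty := by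
    intro j
    obtain ⟨x, hx, hxT⟩ := h j
    rcases hx with hx | hx
    · exact Or.inl ⟨x, hx, hxT⟩
    · exact Or.inr ⟨x, hx, hxT⟩
  rcases h1 0 with h0 | h0 <;> rcases h1 1 with h1' | h1' <;> rcases h1 2 with h2 | h2
  · exact Or.inl ⟨0, 1, by decide, h0, h1'⟩
  · exact Or.inl ⟨0, 1, by decide, h0, h1'⟩
  · exact Or.inl ⟨0, 2, by decide, h0, h2⟩
  · exact Or.inr ⟨1, 2, by decide, h1', h2⟩
  · exact Or.inl ⟨1, 2, by decide, h1', h2⟩
  · exact Or.inr ⟨0, 2, by decide, h0, h2⟩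
  · exact Or.inr ⟨0, 1, by decide, h0, h1'⟩
  · exact Or.inr ⟨0, 1, by decide, h0, h1'⟩

/-- three parts, none of which meets two of the sets -/
theorem three {T : Fin 3 → Set V} {X E Z : Set V} (hX : ¬ Two T X) (hE : ¬ Two T E)
    (hZ : ¬ Two T Z) (h : ∀ j, (((X ∪ E) ∪ Z) ∩ T j).Nonempty) :
    ∃ W : Fin 3 → Set V, (∀ j, (W j ∩ T j).Nonempty) ∧
      (∃ σ : Equiv.Perm (Fin 3), ∀ i, W (σ i) = ![X, E, Z] i) := by
  have h1 : ∀ j, ∃ i : Fin 3, (![X, E, Z] i ∩ T j).Nonempty := by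
    intro j
    obtain ⟨x, hx, hxT⟩ := h j
    rcases hx with (hx | hx) | hx
    · exact ⟨0, x, hx, hxT⟩
    · exact ⟨1, x, hx, hxT⟩
    · exact ⟨2, x, hx, hxT⟩
  choose τ hτ using h1
  have h2 : ∀ i : Fin 3, ¬ Two T (![X, E, Z] i) := by
    intro i
    fin_cases i
    · exact hX
    · exact hE
    · exact hZ
  have hinj : Function.Injective τ := by
    intro a b hab
    by_contra hne
    apply h2 (τ a)
    refine ⟨a, b, hne, hτ a, ?_⟩
    rw [hab]
    exact hτ b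
  let e : Equiv.Perm (Fin 3) := Equiv.ofBijective τ (Finite.injective_iff_bijective.1 hinj)
  refine ⟨fun j => ![X, E, Z] (τ j), hτ, e.symm, ?_⟩
  intro i
  have h3 : τ (e.symm i) = i := e.apply_symm_apply i
  show ![X, E, Z] (τ (e.symm i)) = _
  rw [h3]

/-- **[TRI]** A connected set which meets three sets: (i) it splits into two connected parts which
meet two of the sets each, or (ii) it is a rooted triangle, or (iii) it has a centre. -/
theorem tri [Finite V] (G : SimpleGraph V) (T : Fin 3 → Set V) (M : Set V) (hM : Cn G M)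
    (hT : ∀ j, (M ∩ T j).Nonempty) :
    (∃ C D, C ∪ D = M ∧ Disjoint C D ∧ Cn G C ∧ Cn G D ∧ Ad G C D ∧ Two T C ∧ Two T D) ∨
    (∃ W : Fin 3 → Set V, (⋃ j, W j) = M ∧ (∀ i j, i ≠ j → Disjoint (W i) (W j)) ∧
      (∀ j, Cn G (W j)) ∧ (∀ i j, i ≠ j → Ad G (W i) (W j)) ∧ ∀ j, (W j ∩ T j).Nonempty) ∨
    (∃ m ∈ M, ∀ D ⊆ M \ {m}, Cn G D → ¬ Two T D) := by
  classical
  by_contra hcon
  push Not at hcon
  obtain ⟨hA, hB, hC⟩ := hcon
  -- a split has exactly one rich side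
  have hA' : ∀ D ⊆ M, Cn G D → Cn G (M \ D) → Two T D → ¬ Two T (M \ D) := by
    intro D hD h1 h2 h3 h4
    obtain ⟨u, hu, v, hv, huv⟩ := hM.cross hD h1.nonempty (by
      intro h
      obtain ⟨x, hx⟩ := h2.nonempty
      rw [h] at hx
      exact hx.2 hx.1)
    exact hA D (M \ D) (Set.union_sdiff_cancel hD) Set.disjoint_sdiff_right h1 h2
      ⟨u, hu, v, hv, huv⟩ h3 h4
  have hA'' : ∀ D ⊆ M, ¬ Two T D → Two T (M \ D) := by
    intro D hD h1
    refine (two_or (T := T) (C := D) (D := M \ D) ?_).resolve_left h1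
    intro j
    rw [Set.union_sdiff_cancel hD]
    exact hT j
  -- the family
  have hfin : {D : Set V | D ⊆ M ∧ Cn G D ∧ Cn G (M \ D) ∧ Two T D}.Finite := Set.toFinite _
  obtain ⟨m0, hm0⟩ := hM.nonempty
  obtain ⟨D0, hD0, hD0c, hD0t⟩ := hC m0 hm0
  obtain ⟨F0, hF1, hF2, hF3, hF4, -⟩ := hM.split hm0 hD0c hD0
  obtain ⟨D, ⟨hDM, hDc, hDd, hDt⟩, hmin⟩ := hfin.exists_minimalFor Set.ncard _
    ⟨F0, fun x hx => (hF2 hx).1, hF3, hF4, hD0t.mono hF1⟩
  have hmin' : ∀ D', D' ⊆ D → D' ≠ D → Cn G D' → Cn G (M \ D') → ¬ Two T D' := by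
    intro D' h1 h2 h3 h4 h5
    have h6 : D'.ncard < D.ncard := Set.ncard_lt_ncard (ssubset_of_subset_of_ne h1 h2)
      (Set.toFinite _)
    exact absurd (hmin ⟨h1.trans hDM, h3, h4, h5⟩ h6.le) (not_le.2 h6)
  have hCt : ¬ Two T (M \ D) := hA' D hDM hDc hDd hDt
  obtain ⟨w, hw, c, hc, hwc⟩ := hM.cross hDM hDc.nonempty (by
    intro h
    obtain ⟨x, hx⟩ := hDd.nonempty
    rw [h] at hx
    exact hx.2 hx.1)
  -- the side of `w`
  obtain ⟨F1, hF1s, hF1c, hF1t⟩ := hC w (hDM hw)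
  obtain ⟨F, hFF, hFw, hFc, hFd, hFcl⟩ := hM.split (hDM hw) hF1c hF1s
  have hFt : Two T F := hF1t.mono hFF
  have hFM : F ⊆ M := fun x hx => (hFw hx).1
  have hwF : w ∉ F := fun h => (hFw h).2 rfl
  have hCw : M \ D ⊆ M \ {w} := fun x hx => ⟨hx.1, fun h => hx.2 (by rw [h]; exact hw)⟩
  have hCF : M \ D ⊆ F := by
    by_contra hcon
    have h1 : ¬ ((M \ D) ∩ F).Nonempty := fun h => hcon (hDd.sub_closed hCw hFcl h)
    apply hmin' F _ _ hFc hFd hFt
    · intro x hx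
      by_contra hxD
      exact h1 ⟨x, ⟨hFM hx, hxD⟩, hx⟩
    · intro h
      exact hwF (h ▸ hw)
  have hWt : ¬ Two T (M \ F) := hA' F hFM hFc hFd hFt
  -- the second family
  have hfin2 : {X : Set V | M \ F ⊆ X ∧ X ⊆ D ∧ ¬ Two T X ∧ Cn G X ∧ Cn G (M \ X) ∧
      ∀ u ∈ X \ {w}, ∀ v ∈ D \ X, ¬ G.Adj u v}.Finite := Set.toFinite _
  obtain ⟨X, ⟨hX1, hX2, hX3, hX4, hX5, hX6⟩, hmax⟩ := hfin2.exists_maximalFor Set.ncard _
    ⟨M \ F, Subset.rfl, (fun x hx => by
      by_contra hxD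
      exact hx.2 (hCF ⟨hx.1, hxD⟩)), hWt, hFd, (by
      rw [Set.sdiff_sdiff_cancel_left hFM]
      exact hFc), (by
      intro u hu v hv huv
      have hvF : v ∈ F := by
        by_contra h
        exact hv.2 ⟨hDM hv.1, h⟩
      exact hFcl v hvF u ⟨⟨hu.1.1, hu.2⟩, hu.1.2⟩ huv.symm)⟩
  have hwX : w ∈ X := hX1 ⟨hDM hw, hwF⟩
  have hXD : X ≠ D := fun h => hX3 (h ▸ hDt)
  obtain ⟨e, heD, heX⟩ : (D \ X).Nonempty := by
    by_contra h
    rw [Set.not_nonempty_iff_eq_empty, Set.sdiff_eq_empty] at h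
    exact hXD (Subset.antisymm hX2 h)
  obtain ⟨E, hE1, hE2, hE3, hE4⟩ := (cn_singleton G e).exists_max (N := D \ X)
    (singleton_subset_iff.2 ⟨heD, heX⟩)
  have hED : E ⊆ D := fun x hx => (hE2 hx).1
  have hEX : Disjoint E X := Set.disjoint_left.2 fun x hx hxX => (hE2 hx).2 hxX
  have hwE : w ∉ E := fun h => (hE2 h).2 hwX
  -- `w` is adjacent to `E`
  have hwEad : ∃ x ∈ E, G.Adj w x := by
    obtain ⟨u, hu, v, hv, huv⟩ := hDc.cross hED hE3.nonempty (fun h => hwE (h ▸ hw))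
    by_cases hvX : v ∈ X
    · by_cases hvw : v = w
      · exact ⟨u, hu, hvw ▸ huv.symm⟩
      · exact absurd huv.symm (hX6 v ⟨hvX, hvw⟩ u (hE2 hu))
    · exact absurd huv (hE4 u hu v ⟨⟨hv.1, hvX⟩, hv.2⟩)
  obtain ⟨x0, hx0, hwx0⟩ := hwEad
  -- the rest
  set Z : Set V := (M \ X) \ E with hZ
  have hCZ : M \ D ⊆ Z := fun x hx =>
    ⟨⟨hx.1, fun h => hx.2 (hX2 h)⟩, fun h => hx.2 (hED h)⟩
  have hCX : M \ D ⊆ M \ X := fun x hx => ⟨hx.1, fun h => hx.2 (hX2 h)⟩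
  have hZc : Cn G Z := by
    apply hX5.diff hDd hCX
    · exact Set.disjoint_left.2 fun x hx hxE => hx.2 (hED hxE)
    · intro u hu v hv
      refine hE4 u hu v ⟨⟨?_, hv.1.1.2⟩, hv.1.2⟩
      by_contra hvD
      exact hv.2 ⟨hv.1.1.1, hvD⟩
  have hXE : Ad G X E := ⟨w, hwX, x0, hx0, hwx0⟩
  have hXZ : Ad G X Z := ⟨w, hwX, c, hCZ hc, hwc⟩
  have hEZ : Ad G E Z := by
    have hEMX : E ⊆ M \ X := fun x hx => ⟨hDM (hED hx), (hE2 hx).2⟩
    obtain ⟨u, hu, v, hv, huv⟩ := hX5.cross hEMX hE3.nonempty (by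
      intro h
      have : c ∈ E := by rw [h]; exact hCX hc
      exact hc.2 (hED this))
    exact ⟨u, hu, v, hv, huv⟩
  have hEt : ¬ Two T E := by
    apply hmin' E hED (fun h => hwE (h ▸ hw)) hE3
    have h1 : M \ E = X ∪ Z := by
      ext y
      constructor
      · intro hy
        by_cases hyX : y ∈ X
        · exact Or.inl hyX
        · exact Or.inr ⟨⟨hy.1, hyX⟩, hy.2⟩
      · rintro (hy | hy)
        · exact ⟨hDM (hX2 hy), fun h => Set.disjoint_left.1 hEX h hy⟩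
        · exact ⟨hy.1.1, hy.2⟩
    rw [h1]
    exact hX4.union hZc hXZ
  have hXEc : Cn G (X ∪ E) := hX4.union hE3 hXE
  have hXEM : X ∪ E ⊆ M := union_subset (hX2.trans hDM) (hED.trans hDM)
  have hZeq : M \ (X ∪ E) = Z := by rw [hZ, Set.sdiff_sdiff]
  have hXEt : Two T (X ∪ E) := by
    by_contra hcon
    have h1 : X ∪ E ∈ {X : Set V | M \ F ⊆ X ∧ X ⊆ D ∧ ¬ Two T X ∧ Cn G X ∧ Cn G (M \ X) ∧
        ∀ u ∈ X \ {w}, ∀ v ∈ D \ X, ¬ G.Adj u v} := by
      refine ⟨hX1.trans subset_union_left, union_subset hX2 hED, hcon, hXEc, ?_, ?_⟩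
      · rw [hZeq]; exact hZc
      · intro u hu v hv
        rcases hu.1 with h | h
        · exact hX6 u ⟨h, hu.2⟩ v ⟨hv.1, fun h' => hv.2 (Or.inl h')⟩
        · exact hE4 u h v ⟨⟨hv.1, fun h' => hv.2 (Or.inl h')⟩, fun h' => hv.2 (Or.inr h')⟩
    have h2 : X.ncard < (X ∪ E).ncard := by
      apply Set.ncard_lt_ncard _ (Set.toFinite _)
      exact ⟨subset_union_left, fun h => heX (h (Or.inr (hE1 rfl)))⟩
    exact absurd (hmax h1 h2.le) (not_le.2 h2)
  have hZt : ¬ Two T Z := by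
    rw [← hZeq]
    exact hA' _ hXEM hXEc (by rw [hZeq]; exact hZc) hXEt
  have hun : (X ∪ E) ∪ Z = M := by
    rw [← hZeq]
    exact Set.union_sdiff_cancel hXEM
  obtain ⟨W, hW, σ, hσ⟩ := three (T := T) hX3 hEt hZt (by rw [hun]; exact hT)
  have hW' : ∀ j, W j = ![X, E, Z] (σ.symm j) := by
    intro j
    rw [← hσ, Equiv.apply_symm_apply]
  have hdis : ∀ i j : Fin 3, i ≠ j → Disjoint (![X, E, Z] i) (![X, E, Z] j) := by
    have h1 : Disjoint X E := hEX.symm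
    have h2 : Disjoint X Z := Set.disjoint_left.2 fun x hx hxZ => hxZ.1.2 hx
    have h3 : Disjoint E Z := Set.disjoint_left.2 fun x hx hxZ => hxZ.2 hx
    intro i j hij
    fin_cases i <;> fin_cases j <;>
      first | exact absurd rfl hij | exact h1 | exact h1.symm | exact h2 | exact h2.symm |
        exact h3 | exact h3.symm
  have had : ∀ i j : Fin 3, i ≠ j → Ad G (![X, E, Z] i) (![X, E, Z] j) := by
    intro i j hij
    fin_cases i <;> fin_cases j <;>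
      first | exact absurd rfl hij | exact hXE | exact hXE.symm | exact hXZ | exact hXZ.symm |
        exact hEZ | exact hEZ.symm
  have hcn : ∀ i : Fin 3, Cn G (![X, E, Z] i) := by
    intro i
    fin_cases i
    · exact hX4
    · exact hE3
    · exact hZc
  obtain ⟨j, hj⟩ := hB W (by
    rw [← hun]
    ext y
    simp only [Set.mem_iUnion, hW']
    constructor
    · rintro ⟨j, hy⟩
      revert hy
      generalize σ.symm j = i
      fin_cases i
      · exact fun hy => Or.inl (Or.inl hy)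
      · exact fun hy => Or.inl (Or.inr hy)
      · exact fun hy => Or.inr hy
    · rintro ((hy | hy) | hy)
      · exact ⟨σ 0, by rw [Equiv.symm_apply_apply]; exact hy⟩
      · exact ⟨σ 1, by rw [Equiv.symm_apply_apply]; exact hy⟩
      · exact ⟨σ 2, by rw [Equiv.symm_apply_apply]; exact hy⟩)
    (by
      intro i j hij
      rw [hW', hW']
      exact hdis _ _ (fun h => hij (σ.symm.injective h)))
    (fun j => by rw [hW']; exact hcn _)
    (by
      intro i j hij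
      rw [hW', hW']
      exact had _ _ (fun h => hij (σ.symm.injective h)))
  exact absurd (hW j) (by rw [hj]; exact Set.not_nonempty_empty)

end Vale.Agent.P235.K5.H394
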